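import Vale.Agent.P128.Ends.Star

/-!
# P128, piece M (ends): tubes

A chain of windows `[lo i, hi i]` with directions `v i` splits the crack set into `n` tubes.
-/

open MeasureTheory Set Metric Filter
open scoped ENNReal Topology Real

noncomputable section

namespace Vale.Agent.P128.Ends

variable {K : Set ℂ} {x : ℂ} {n : ℕ} {lo hi : ℕ → ℝ} {v : ℕ → ℂ} {D : Set ℝ}

/-- The `j`-th tube. -/
def tube (K : Set ℂ) (x : ℂ) (n : ℕ) (lo hi : ℕ → ℝ) (v : ℕ → ℂ) (j : ℕ) : Set ℂ :=
  {p | p ∈ K ∧ ∃ i, dist p x ∈ Icc (lo i) (hi i) ∧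
    ‖p - x - dist p x • (v i * om n ^ j)‖ ≤ dist p x / 5}

/-- A chain of windows over the range of radii `D`. -/
structure Chain (K : Set ℂ) (x : ℂ) (n : ℕ) (lo hi : ℕ → ℝ) (v : ℕ → ℂ) (D : Set ℝ) : Prop where
  num : n = 2 ∨ n = 3
  closed : IsClosed K
  pos : ∀ i, 0 < lo i
  le : ∀ i, lo i ≤ hi i
  overlap : ∀ i i' s, s ∈ Icc (lo i) (hi i) → s ∈ Icc (lo i') (hi i') → ‖v i - v i'‖ ≤ 1 / 10
  cover : ∀ p ∈ K, dist p x ∈ D → ∃ i, dist p x ∈ Icc (lo i) (hi i) ∧
    ∃ j : ℕ, ‖p - x - dist p x • (v i * om n ^ j)‖ ≤ dist p x / 5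
  finite : ∀ a b : ℝ, 0 < a → ∃ M : ℕ, ∀ i s, s ∈ Icc (lo i) (hi i) → s ∈ Icc a b → i < M
  hit : ∀ i j, ∃ p ∈ tube K x n lo hi v j, dist p x = lo i

theorem Chain.npos (c : Chain K x n lo hi v D) : 0 < n := by
  rcases c.num with h | h <;> omega

theorem Chain.exists_tube (c : Chain K x n lo hi v D) {p : ℂ} (hp : p ∈ K) (hD : dist p x ∈ D) :
    ∃ j < n, p ∈ tube K x n lo hi v j := by
  obtain ⟨i, hi', j, hj⟩ := c.cover p hp hD
  exact ⟨j % n, Nat.mod_lt _ c.npos, hp, i, hi', by rwa [← om_pow_mod c.npos]⟩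

theorem tube_subset (j : ℕ) : tube K x n lo hi v j ⊆ K := fun _ hp => hp.1

theorem Chain.disjoint (c : Chain K x n lo hi v D) {j k : ℕ} (hj : j < n) (hk : k < n)
    (hjk : j ≠ k) {p : ℂ} (hpj : p ∈ tube K x n lo hi v j) : p ∉ tube K x n lo hi v k := by
  rintro ⟨-, i', hi', hk'⟩
  obtain ⟨-, i, hi'', hj'⟩ := hpj
  have hs : 0 < dist p x := (c.pos i).trans_le hi''.1
  have hov := c.overlap i i' _ hi'' hi'
  have h1 : dist p x * ‖v i' * (om n ^ j - om n ^ k)‖ ≤
      dist p x / 5 + dist p x / 5 + dist p x * (1 / 10) := by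
    rw [← Real.norm_of_nonneg hs.le, ← norm_smul,
      show dist p x • (v i' * (om n ^ j - om n ^ k)) =
        (p - x - dist p x • (v i' * om n ^ k)) - (p - x - dist p x • (v i * om n ^ j)) -
          dist p x • ((v i - v i') * om n ^ j) by simp only [mul_sub, sub_mul]; module,
      Real.norm_of_nonneg hs.le]
    refine (norm_sub_le _ _).trans (add_le_add ((norm_sub_le _ _).trans (add_le_add hk' hj')) ?_)
    rw [norm_smul, norm_mul, norm_om_pow, mul_one, Real.norm_of_nonneg hs.le]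
    exact mul_le_mul_of_nonneg_left hov hs.le
  have hsep := om_sep c.num hj hk hjk
  -- the directions are at least `4/5` long
  have hv : 4 / 5 ≤ ‖v i'‖ := by
    have h3 : dist p x ≤ ‖p - x - dist p x • (v i' * om n ^ k)‖ + dist p x * ‖v i'‖ := by
      have := norm_le_insert' (p - x) (dist p x • (v i' * om n ^ k))
      rw [← dist_eq_norm p x, norm_smul, norm_mul, norm_om_pow, mul_one,
        Real.norm_of_nonneg hs.le] at this
      linarith
    by_contra hlt
    nlinarith [mul_lt_mul_of_pos_left (not_le.1 hlt) hs]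
  rw [norm_mul] at h1
  nlinarith [mul_le_mul hv hsep zero_le_one (norm_nonneg _)]

theorem Chain.isClosed_annulus (c : Chain K x n lo hi v D) (j : ℕ) {a b : ℝ} (ha : 0 < a) :
    IsClosed (tube K x n lo hi v j ∩ {p | dist p x ∈ Icc a b}) := by
  obtain ⟨M, hM⟩ := c.finite a b ha
  have e : tube K x n lo hi v j ∩ {p | dist p x ∈ Icc a b} = (⋃ i ∈ Iio M,
      {p | p ∈ K ∧ dist p x ∈ Icc (lo i) (hi i) ∧
        ‖p - x - dist p x • (v i * om n ^ j)‖ ≤ dist p x / 5}) ∩ {p | dist p x ∈ Icc a b} := by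
    ext p
    simp only [tube, mem_inter_iff, mem_ofPred_eq, mem_iUnion, exists_prop, mem_Iio]
    constructor
    · rintro ⟨⟨hp, i, hi', hd⟩, hab⟩
      exact ⟨⟨i, hM i _ hi' hab, hp, hi', hd⟩, hab⟩
    · rintro ⟨⟨i, -, hp, hi', hd⟩, hab⟩
      exact ⟨⟨hp, i, hi', hd⟩, hab⟩
  rw [e]
  refine IsClosed.inter ((finite_Iio M).isClosed_biUnion fun i _ => ?_) ?_
  · exact c.closed.inter ((isClosed_Icc.preimage (by fun_prop : Continuous fun p => dist p x)).inter
      (isClosed_le (f := fun p => ‖p - x - dist p x • (v i * om n ^ j)‖)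
        (g := fun p => dist p x / 5) (by fun_prop) (by fun_prop)))
  · exact isClosed_Icc.preimage (by fun_prop : Continuous fun p => dist p x)

/-- Tubes are closed away from the centre. -/
theorem Chain.closure_tube (c : Chain K x n lo hi v D) (j : ℕ) :
    closure (tube K x n lo hi v j) ⊆ tube K x n lo hi v j ∪ {x} := by
  intro y hy
  by_cases hyx : y = x
  · exact Or.inr hyx
  left
  have hd : 0 < dist y x := dist_pos.2 hyx
  have hW : {p | dist p x ∈ Ioo (dist y x / 2) (2 * dist y x)} ∈ 𝓝 y :=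
    (isOpen_Ioo.preimage (by fun_prop : Continuous fun p => dist p x)).mem_nhds
      (show dist y x ∈ Ioo (dist y x / 2) (2 * dist y x) from ⟨by linarith, by linarith⟩)
  have : y ∈ closure (tube K x n lo hi v j ∩ {p | dist p x ∈ Icc (dist y x / 2) (2 * dist y x)}) := by
    rw [mem_closure_iff_nhds] at hy ⊢
    intro U hU
    obtain ⟨p, ⟨hpU, hpW⟩, hpT⟩ := hy _ (inter_mem hU hW)
    exact ⟨p, hpU, hpT, Ioo_subset_Icc_self hpW⟩
  rw [(c.isClosed_annulus j (a := dist y x / 2) (b := 2 * dist y x) (half_pos hd)).closure_eq] at this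
  exact this.1

theorem Chain.isClosed_insert (c : Chain K x n lo hi v D) (j : ℕ) :
    IsClosed (tube K x n lo hi v j ∪ {x}) := by
  refine closure_subset_iff_isClosed.1 ?_
  rw [closure_union, closure_singleton]
  exact union_subset (c.closure_tube j) subset_union_right

/-- Tubes bounded away from the centre are closed. -/
theorem Chain.isClosed_tube (c : Chain K x n lo hi v D) {δ : ℝ} (hδ : 0 < δ)
    (hlo : ∀ i, δ ≤ lo i) (j : ℕ) : IsClosed (tube K x n lo hi v j) := by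
  refine closure_subset_iff_isClosed.1 fun y hy => ?_
  rcases c.closure_tube j hy with h | h
  · exact h
  · exfalso
    rw [mem_singleton_iff] at h
    obtain ⟨p, hp, -, i, hi', -⟩ := mem_closure_iff.1 hy _ isOpen_ball
      (h ▸ mem_ball_self hδ : y ∈ ball x δ)
    linarith [mem_ball.1 hp, hi'.1, hlo i]

/-- One step of a chain: the direction on the next circle closest to the present one. -/
theorem exists_next {w : ℂ} {r r' : ℝ} {u : ℂ → ℝ} (h : IsGM K u) (hC : CompStructure K)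
    (hx : x ∈ K) (hn : n = 2 ∨ n = 3) (P : Pair2 K x n r r' ∨ Pair2 K x n r' r)
    (hw : Star K x n r w) : ∃ w', Star K x n r' w' ∧ ‖w - w'‖ ≤ 1 / 10 := by
  have hn0 : 0 < n := by rcases hn with h | h <;> omega
  rcases P with P | P
  · obtain ⟨w', hw'⟩ := P.nice'.star
    obtain ⟨k, hk⟩ := P.anchor h hC hx hn hw hw'
    exact ⟨_, hw'.shift hn0 k, hk⟩
  · obtain ⟨w', hw'⟩ := P.nice.star
    obtain ⟨k, hk⟩ := P.anchor h hC hx hn hw' hw
    refine ⟨_, hw'.shift hn0 ((n - 1) * k), ?_⟩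
    rw [show w - w' * om n ^ ((n - 1) * k) = -((w' - w * om n ^ k) * om n ^ ((n - 1) * k)) by
      rw [sub_mul, mul_assoc, ← pow_add, show k + (n - 1) * k = n * k by
        obtain ⟨m, rfl⟩ : ∃ m, n = m + 1 := ⟨n - 1, by omega⟩
        simp only [Nat.add_sub_cancel]; ring,
        show om n ^ (n * k) = 1 by rw [pow_mul, om_pow_self hn0, one_pow], mul_one, neg_sub],
      norm_neg, norm_mul, norm_om_pow, mul_one]
    exact hk

theorem exists_directions {u : ℂ → ℝ} (h : IsGM K u) (hC : CompStructure K) (hx : x ∈ K)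
    (hn : n = 2 ∨ n = 3) {r : ℕ → ℝ} (h0 : Nice K x n (r 0))
    (hP : ∀ i, Pair2 K x n (r i) (r (i + 1)) ∨ Pair2 K x n (r (i + 1)) (r i)) :
    ∃ v : ℕ → ℂ, ∀ i, Star K x n (r i) (v i) ∧ ‖v i - v (i + 1)‖ ≤ 1 / 10 := by
  obtain ⟨w₀, hw₀⟩ := h0.star
  choose f hf hfd using fun (i : ℕ) (w : {w : ℂ // Star K x n (r i) w}) =>
    exists_next h hC hx hn (hP i) w.2
  let V : ∀ i, {w : ℂ // Star K x n (r i) w} :=
    fun i => Nat.rec ⟨w₀, hw₀⟩ (fun i w => ⟨f i w, hf i w⟩) i
  exact ⟨fun i => (V i).1, fun i => ⟨(V i).2, hfd i (V i)⟩⟩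

/-- The chain towards infinity. -/
theorem exists_chain_up {u : ℂ → ℝ} (h : IsGM K u) (hC : CompStructure K) (hx : x ∈ K)
    (hn : n = 2 ∨ n = 3) {r : ℕ → ℝ} (hP : ∀ i, Pair2 K x n (r i) (r (i + 1)))
    (htop : Tendsto r atTop atTop) :
    ∃ v, Chain K x n r (fun i => r (i + 1)) v (Ici (r 0)) := by
  obtain ⟨v, hv⟩ := exists_directions h hC hx hn (hP 0).nice fun i => Or.inl (hP i)
  have hmono : StrictMono r := strictMono_nat_of_lt_succ fun i => (hP i).lt
  refine ⟨v, ⟨hn, h.isClosed, fun i => (hP i).nice.pos, fun i => (hP i).lt.le, ?_, ?_, ?_, ?_⟩⟩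
  · intro i i' s h1 h2
    have a := hmono.le_iff_le.1 (h1.1.trans h2.2)
    have b := hmono.le_iff_le.1 (h2.1.trans h1.2)
    rcases lt_trichotomy i i' with hlt | rfl | hlt
    · rw [show i' = i + 1 by omega]; exact (hv i).2
    · simp
    · rw [show i = i' + 1 by omega, norm_sub_rev]; exact (hv i').2
  · intro p hp hD
    have hex : ∃ i, dist p x ≤ r (i + 1) :=
      ((htop.comp (tendsto_add_atTop_nat 1)).eventually (eventually_ge_atTop (dist p x))).exists
    set i := Nat.find hex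
    have hlo : r i ≤ dist p x := by
      rcases Nat.eq_zero_or_pos i with h0 | h0
      · rw [h0]; exact hD
      · have := not_le.1 (Nat.find_min hex (show i - 1 < i by omega))
        rw [show i - 1 + 1 = i by omega] at this
        exact this.le
    refine ⟨i, ⟨hlo, Nat.find_spec hex⟩, ?_⟩
    exact (hP i).cover h hC hx (by omega) (hv i).1 (hv (i + 1)).1
      (by simp) (hv i).2 hp hlo (Nat.find_spec hex)
  · intro a b _
    obtain ⟨M, hM⟩ := eventually_atTop.1 (htop.eventually (eventually_gt_atTop b))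
    refine ⟨M, fun i s hs hab => ?_⟩
    by_contra hlt
    linarith [hM i (not_lt.1 hlt), hs.1, hab.2]
  · intro i j
    obtain ⟨z, hz, hzd⟩ := (hv i).1.hit j
    have hzx : dist z x = r i := mem_sphere.1 hz.2
    refine ⟨z, ⟨hz.1, i, ?_, ?_⟩, hzx⟩
    · rw [hzx]; exact ⟨le_rfl, (hP i).lt.le⟩
    · rw [hzx]; linarith [(hP i).nice.pos]

/-- The chain towards the centre. -/
theorem exists_chain_down {u : ℂ → ℝ} (h : IsGM K u) (hC : CompStructure K) (hx : x ∈ K)
    (hn : n = 2 ∨ n = 3) {r : ℕ → ℝ} (hP : ∀ i, Pair2 K x n (r (i + 1)) (r i))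
    (hzero : Tendsto r atTop (𝓝 0)) :
    ∃ v, Chain K x n (fun i => r (i + 1)) r v (Ioc 0 (r 0)) := by
  obtain ⟨v, hv⟩ := exists_directions h hC hx hn (hP 0).nice' fun i => Or.inr (hP i)
  have hanti : StrictAnti r := strictAnti_nat_of_succ_lt fun i => (hP i).lt
  refine ⟨v, ⟨hn, h.isClosed, fun i => (hP i).nice.pos, fun i => (hP i).lt.le, ?_, ?_, ?_, ?_⟩⟩
  · intro i i' s h1 h2
    have a := hanti.le_iff_ge.1 (h1.1.trans h2.2)
    have b := hanti.le_iff_ge.1 (h2.1.trans h1.2)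
    rcases lt_trichotomy i i' with hlt | rfl | hlt
    · rw [show i' = i + 1 by omega]; exact (hv i).2
    · simp
    · rw [show i = i' + 1 by omega, norm_sub_rev]; exact (hv i').2
  · intro p hp hD
    have hex : ∃ i, r (i + 1) ≤ dist p x :=
      ((hzero.comp (tendsto_add_atTop_nat 1)).eventually (eventually_le_nhds hD.1)).exists
    set i := Nat.find hex
    have hhi : dist p x ≤ r i := by
      rcases Nat.eq_zero_or_pos i with h0 | h0
      · rw [h0]; exact hD.2
      · have := not_le.1 (Nat.find_min hex (show i - 1 < i by omega))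
        rw [show i - 1 + 1 = i by omega] at this
        exact this.le
    refine ⟨i, ⟨Nat.find_spec hex, hhi⟩, ?_⟩
    exact (hP i).cover h hC hx (by omega) (hv (i + 1)).1 (hv i).1
      (hv i).2 (by simp) hp (Nat.find_spec hex) hhi
  · intro a b ha
    obtain ⟨M, hM⟩ := eventually_atTop.1 (hzero.eventually (eventually_lt_nhds ha))
    refine ⟨M, fun i s hs hab => ?_⟩
    by_contra hlt
    linarith [hM i (not_lt.1 hlt), hs.2, hab.1]
  · intro i j
    obtain ⟨z, hz, hzd⟩ := (hv (i + 1)).1.hit j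
    have hzx : dist z x = r (i + 1) := mem_sphere.1 hz.2
    refine ⟨z, ⟨hz.1, i + 1, ?_, ?_⟩, hzx⟩
    · rw [hzx]; exact ⟨(hP (i + 1)).lt.le, le_rfl⟩
    · rw [hzx]; linarith [(hP i).nice.pos]

end Vale.Agent.P128.Ends
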