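import Vale.Agent.P128.TipBasic

/-!
# P128, piece M (ends): the length density at an end with `y → 0` is an integer, two or three
-/

open MeasureTheory Set Metric Filter
open scoped ENNReal Topology Real

noncomputable section

namespace Vale.Agent.P128.Ends

variable {K : Set ℂ} {u : ℂ → ℝ} {x : ℂ} {l : Filter ℝ}

/-- A radius at which circle calculus works and the tangential energy is small. -/
def Small (K : Set ℂ) (u : ℂ → ℝ) (x : ℂ) (ε r : ℝ) : Prop :=
  GoodRadius K u x r ∧ tauC u x r ≤ ε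

/-- Few radii below a scale with small energy fail to be small. -/
theorem volume_not_small (hG : GrowthSpec) (h : IsGM K u) {a b ε : ℝ} (ha : 0 < a) (hab : a ≤ b)
    (hε : 0 < ε) (hy : yrat K u x b ≤ ε ^ 2) :
    volume {s | s ∈ Icc a b ∧ ¬ Small K u x ε s} ≤ ENNReal.ofReal (ε * b) := by
  obtain ⟨hle, hae, hint⟩ := hG K u h x
  obtain ⟨hi, heq⟩ := hint a b ha.le hab
  set f : ℝ → ℝ := fun s => tauC u x s + rhoC u x s with hf
  have hb : 0 < b := ha.trans_le hab
  have hnn : ∀ s ∈ Ioc a b, 0 ≤ f s := fun s hs =>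
    add_nonneg (tauC_nonneg u x (ha.trans hs.1).le) (rhoC_nonneg u x (ha.trans hs.1).le)
  set μ := volume.restrict (Ioc a b) with hμ
  have hfi : Integrable f μ := hi.1
  set B := {s | ε ≤ f s} with hB
  have hmk : ε * μ.real B ≤ ∫ s, f s ∂μ :=
    mul_meas_ge_le_integral_of_nonneg ((ae_restrict_iff' measurableSet_Ioc).2
      (Eventually.of_forall hnn)) hfi ε
  have hD : ∫ s, f s ∂μ ≤ ε ^ 2 * b := by
    rw [hμ, ← intervalIntegral.integral_of_le hab]
    have h0 := (hle a ha).1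
    have h1 : dir K u x b ≤ ε ^ 2 * b := by rwa [yrat, div_le_iff₀ hb] at hy
    simp only [hf] at *
    linarith
  have hBv : μ B ≤ ENNReal.ofReal (ε * b) := by
    have : μ.real B ≤ ε * b := by nlinarith [hmk.trans hD]
    exact (ENNReal.le_ofReal_iff_toReal_le (measure_ne_top _ _) (by positivity)).2 this
  have hnull : volume ({s : ℝ | ¬ (0 < s → GoodRadius K u x s)} ∪ {a}) = 0 :=
    measure_union_null (ae_iff.1 hae) (measure_singleton a)
  have hsub : {s | s ∈ Icc a b ∧ ¬ Small K u x ε s} ⊆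
      (B ∩ Ioc a b) ∪ ({s : ℝ | ¬ (0 < s → GoodRadius K u x s)} ∪ {a}) := by
    rintro s ⟨hs, hns⟩
    by_cases hsa : s = a
    · exact Or.inr (Or.inr hsa)
    have hs' : s ∈ Ioc a b := ⟨lt_of_le_of_ne hs.1 (Ne.symm hsa), hs.2⟩
    by_cases hg : GoodRadius K u x s
    · refine Or.inl ⟨?_, hs'⟩
      have : ε < tauC u x s := not_le.1 fun hh => hns ⟨hg, hh⟩
      simp only [hB, mem_ofPred_eq, hf]
      linarith [rhoC_nonneg u x (ha.trans hs'.1).le]
    · exact Or.inr (Or.inl fun hh => hg (hh (ha.trans hs'.1)))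
  refine (measure_mono hsub).trans ((measure_union_le _ _).trans ?_)
  rw [hnull, add_zero, ← Measure.restrict_apply' measurableSet_Ioc]
  exact hBv

/-- Small radii are most radii at an end with `y → 0`. -/
theorem most_small (hG : GrowthSpec) (h : IsGM K u) (hl : IsEnd l)
    (hy : Tendsto (yrat K u x) l (𝓝 0)) {ε : ℝ} (hε : 0 < ε) :
    Most l (Small K u x ε) := by
  intro δ hδ
  set e := min ε (δ / 2)
  have he : 0 < e := lt_min hε (by positivity)
  filter_upwards [hl.eventually_forall_Icc (hy.eventually (eventually_le_nhds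
    (show (0 : ℝ) < e ^ 2 by positivity))), hl.eventually_pos] with R hR hR0
  refine (measure_mono ?_).trans ((volume_not_small hG h hR0 (by linarith : R ≤ 2 * R) he
    (hR _ ⟨by linarith, le_rfl⟩)).trans (ENNReal.ofReal_le_ofReal ?_))
  · rintro s ⟨hs, hns⟩
    exact ⟨hs, fun hh => hns ⟨hh.1, hh.2.trans (min_le_left _ _)⟩⟩
  · nlinarith [min_le_right ε (δ / 2)]

/-- Cone comparison on a small radius: at least `h - 2τ` crossings. -/
theorem len_le_cnt (hG : GrowthSpec) (hC : CompStructure K) (hCone : ConeSpec) (hP : PartitionSpec)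
    (h : IsGM K u) (hx : x ∈ K) {ε s : ℝ} (hs : Small K u x ε s) :
    ∃ m : ℕ, (m : ℕ∞) = cnt K x s ∧ 1 ≤ m ∧ len K x s ≤ ((m : ℝ) + 2 * ε) * s := by
  obtain ⟨hg, hτ⟩ := hs
  obtain ⟨t, m, hp⟩ := exists_partition hP hC hx hg
  refine ⟨m, ((hP K x s hg.pos hg.fin).2 t m hp).1, hp.1, ?_⟩
  have hc := (hCone K u h x s hg).2 t m hp
  have hd := ((hG K u h x).1 s hg.pos).1
  have hsum : ∑ i ∈ Finset.range m, (t (i + 1) - t i) / π * tauArc u x s (t i) (t (i + 1)) ≤
      2 * tauC u x s := by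
    rw [← sum_tauArc hg hp, Finset.mul_sum]
    refine Finset.sum_le_sum fun i hi => ?_
    obtain ⟨h1, h2, -⟩ := (hp.2.2 i (Finset.mem_range.1 hi)).1
    refine mul_le_mul_of_nonneg_right ?_ (tauArc_nonneg u x hg.pos.le h1.le)
    rw [div_le_iff₀ Real.pi_pos]
    linarith
  nlinarith [hg.pos]

/-- Eilenberg for the length function. -/
theorem len_add_le (hE : EilenbergSpec) (h : IsGM K u) {a b : ℝ} (ha : 0 ≤ a) (hab : a ≤ b)
    {g : ℝ → ℝ≥0∞} (hg : ∀ s ∈ Ioo a b, g s ≤ (cnt K x s : ℝ≥0∞)) :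
    ENNReal.ofReal (len K x a) + ∫⁻ s in Ioo a b, g s ≤ ENNReal.ofReal (len K x b) := by
  obtain ⟨-, hb⟩ := hE K h.isClosed x
  rw [len, len, ENNReal.ofReal_toReal (h.length_lt_top x a).ne,
    ENNReal.ofReal_toReal (h.length_lt_top x b).ne,
    ← measure_inter_add_sdiff (μ := (μH[1] : Measure ℂ)) (K ∩ ball x b)
      (measurableSet_ball (x := x) (ε := a))]
  refine add_le_add (measure_mono fun z hz => ⟨⟨hz.1, ball_subset_ball hab hz.2⟩, hz.2⟩)
    ((setLIntegral_mono' measurableSet_Ioo hg).trans ((hb a b ha).trans (measure_mono ?_)))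
  rintro z ⟨hzK, hz, hzn⟩
  exact ⟨⟨hzK, hz⟩, fun hzb => hzn (ball_subset_closedBall hzb)⟩

/-- The measurable set of radii with at least `k` crossings. -/
def atLeast (K : Set ℂ) (x : ℂ) (k : ℕ) : Set ℝ := {s | (k : ℝ≥0∞) ≤ (cnt K x s : ℝ≥0∞)}

theorem measurableSet_atLeast (hE : EilenbergSpec) (hK : IsClosed K) (k : ℕ) :
    MeasurableSet (atLeast K x k) :=
  measurableSet_le measurable_const (hE K hK x).1

theorem mem_atLeast {k m : ℕ} {s : ℝ} (hm : (m : ℕ∞) = cnt K x s) (hk : k ≤ m) :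
    s ∈ atLeast K x k := by
  show (k : ℝ≥0∞) ≤ (cnt K x s : ℝ≥0∞)
  rw [← hm]
  simpa using hk

/-- Growth: once above an integer level the density climbs to the next one. -/
theorem growth_step (hG : GrowthSpec) (hE : EilenbergSpec) (hC : CompStructure K)
    (hCone : ConeSpec) (hP : PartitionSpec) (h : IsGM K u) (hx : x ∈ K) {k : ℕ} {a b δ ε : ℝ}
    (ha : 0 < a) (hab : a ≤ b) (hδ : 0 < δ) (hδ1 : δ ≤ 1) (hε : 0 < ε)
    (hεδ : (k + 5) * ε < δ / 2) (hy : ∀ s ∈ Icc a b, yrat K u x s ≤ ε ^ 2)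
    (hh : ((k : ℝ) + δ) * a ≤ len K x a) :
    ((k : ℝ) + δ) * b + (1 - δ) * (b - a) - (k + 1) * ε * b ≤ len K x b := by
  have key : ∀ c ∈ Icc a b, (∀ t ∈ Ico a c, ((k : ℝ) + δ / 2) * t ≤ len K x t) →
      ((k : ℝ) + δ) * c + (1 - δ) * (c - a) - (k + 1) * ε * c ≤ len K x c := by
    intro c hc hlow
    have hc0 : 0 < c := ha.trans_le hc.1
    have hS := measurableSet_atLeast (x := x) hE h.isClosed (k + 1)
    have hcov : Ioo a c ⊆ atLeast K x (k + 1) ∩ Ioo a c ∪
        {s | s ∈ Icc a c ∧ ¬ Small K u x ε s} := by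
      intro s hs
      by_cases hsm : Small K u x ε s
      · refine Or.inl ⟨?_, hs⟩
        obtain ⟨m, hm, -, hlen⟩ := len_le_cnt hG hC hCone hP h hx hsm
        refine mem_atLeast hm ?_
        have h1 := (hlow s ⟨hs.1.le, hs.2⟩).trans hlen
        have h2 : (k : ℝ) + δ / 2 ≤ (m : ℝ) + 2 * ε := le_of_mul_le_mul_right h1 (ha.trans hs.1)
        have : (k : ℝ) < m := by nlinarith [k.cast_nonneg (α := ℝ)]
        exact_mod_cast this
      · exact Or.inr ⟨⟨hs.1.le, hs.2.le⟩, hsm⟩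
    have hv := (measure_mono hcov).trans ((measure_union_le _ _).trans (add_le_add le_rfl
      (volume_not_small hG h ha hc.1 hε (hy c hc))))
    rw [Real.volume_Ioo] at hv
    have hfinS : volume (atLeast K x (k + 1) ∩ Ioo a c) ≠ ⊤ :=
      ne_top_of_le_ne_top measure_Ioo_lt_top.ne (measure_mono inter_subset_right)
    have hv' : c - a - ε * c ≤ (volume (atLeast K x (k + 1) ∩ Ioo a c)).toReal := by
      have := ENNReal.toReal_mono (ENNReal.add_ne_top.2 ⟨hfinS, ENNReal.ofReal_ne_top⟩) hv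
      rw [ENNReal.toReal_add hfinS ENNReal.ofReal_ne_top, ENNReal.toReal_ofReal (by linarith [hc.1]),
        ENNReal.toReal_ofReal (by positivity)] at this
      linarith
    have hg := len_add_le (x := x) (g := (atLeast K x (k + 1)).indicator fun _ => ((k + 1 : ℕ) : ℝ≥0∞))
      hE h ha.le hc.1 fun s _ => by
        by_cases hs : s ∈ atLeast K x (k + 1)
        · rw [indicator_of_mem hs]; exact hs
        · rw [indicator_of_notMem hs]; exact zero_le
    rw [lintegral_indicator hS, setLIntegral_const, Measure.restrict_apply hS] at hg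
    have hg' := ENNReal.toReal_mono ENNReal.ofReal_ne_top hg
    rw [ENNReal.toReal_add ENNReal.ofReal_ne_top (ENNReal.mul_ne_top (ENNReal.natCast_ne_top _) hfinS),
      ENNReal.toReal_ofReal (show 0 ≤ len K x a from ENNReal.toReal_nonneg),
      ENNReal.toReal_ofReal (show 0 ≤ len K x c from ENNReal.toReal_nonneg),
      ENNReal.toReal_mul, ENNReal.toReal_natCast] at hg'
    push_cast at hg'
    nlinarith [mul_le_mul_of_nonneg_left hv' (show (0 : ℝ) ≤ (k : ℝ) + 1 by positivity)]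
  set P : Set ℝ := {c | c ∈ Icc a b ∧ ∀ t ∈ Ico a c, ((k : ℝ) + δ / 2) * t ≤ len K x t} with hPd
  have haP : a ∈ P := ⟨left_mem_Icc.2 hab, fun t ht => absurd ht.1 (not_le.2 ht.2)⟩
  have hbdd : BddAbove P := ⟨b, fun c hc => hc.1.2⟩
  set c := sSup P
  have hac : a ≤ c := le_csSup hbdd haP
  have hcb : c ≤ b := csSup_le ⟨a, haP⟩ fun d hd => hd.1.2
  have hlow : ∀ t ∈ Ico a c, ((k : ℝ) + δ / 2) * t ≤ len K x t := fun t ht => by
    obtain ⟨d, hd, htd⟩ := exists_lt_of_lt_csSup ⟨a, haP⟩ ht.2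
    exact hd.2 t ⟨ht.1, htd⟩
  rcases hcb.eq_or_lt with heq | hlt
  · exact heq ▸ key c ⟨hac, hcb⟩ hlow
  exfalso
  have hc0 : 0 < c := ha.trans_le hac
  have hk := key c ⟨hac, hcb⟩ hlow
  have hq : 0 < (k : ℝ) + δ / 2 := by positivity
  have hs : ((k : ℝ) + δ / 2) * c < len K x c := by
    nlinarith [mul_nonneg (sub_nonneg.2 hδ1) (sub_nonneg.2 hac), mul_pos hε hc0]
  set d := min b (len K x c / ((k : ℝ) + δ / 2))
  have hcd : c < d := lt_min hlt (by rw [lt_div_iff₀ hq]; linarith)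
  refine absurd (le_csSup hbdd (⟨⟨hac.trans hcd.le, min_le_left _ _⟩, fun t ht => ?_⟩ : d ∈ P))
    (not_le.2 hcd)
  rcases lt_or_ge t c with htc | htc
  · exact hlow t ⟨ht.1, htc⟩
  · refine le_trans ?_ (len_mono h htc)
    have : t ≤ len K x c / ((k : ℝ) + δ / 2) := ht.2.le.trans (min_le_right _ _)
    rw [le_div_iff₀ hq] at this
    linarith

/-- Frequently above a level, eventually near the next one. -/
theorem eventually_next (hG : GrowthSpec) (hE : EilenbergSpec) (hC : CompStructure K)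
    (hCone : ConeSpec) (hP : PartitionSpec) (h : IsGM K u) (hx : x ∈ K) (hl : IsEnd l)
    (hy : Tendsto (yrat K u x) l (𝓝 0)) {k : ℕ} {δ : ℝ} (hδ : 0 < δ)
    (hfreq : ∃ᶠ r in l, ((k : ℝ) + δ) * r < len K x r) {η : ℝ} (hη : 0 < η) :
    ∀ᶠ r in l, ((k : ℝ) + 1 - η) * r ≤ len K x r := by
  set d := min δ 1
  have hd : 0 < d := lt_min hδ one_pos
  set ε := min (d / (4 * ((k : ℝ) + 5))) (η / (2 * ((k : ℝ) + 5)))
  have hk5 : (0 : ℝ) < (k : ℝ) + 5 := by positivity
  have hε : 0 < ε := lt_min (by positivity) (by positivity)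
  have hεd : ((k : ℝ) + 5) * ε < d / 2 := by
    have : ε ≤ d / (4 * ((k : ℝ) + 5)) := min_le_left _ _
    rw [le_div_iff₀ (by positivity)] at this
    linarith
  have hεη : ((k : ℝ) + 5) * ε ≤ η / 2 := by
    have : ε ≤ η / (2 * ((k : ℝ) + 5)) := min_le_right _ _
    rw [le_div_iff₀ (by positivity)] at this
    linarith
  set M := max 1 (2 / η)
  have hM1 : 1 ≤ M := le_max_left _ _
  have hMη : 2 ≤ η * M := by
    have : 2 / η ≤ M := le_max_right _ _
    rw [div_le_iff₀ hη] at this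
    linarith
  have hfreq' : ∃ᶠ r in l, ((k : ℝ) + d) * r < len K x r :=
    (hfreq.and_eventually hl.eventually_pos).mono fun r hr => lt_of_le_of_lt
      (mul_le_mul_of_nonneg_right (by linarith [min_le_left δ 1]) hr.2.le) hr.1
  have fin : ∀ a b : ℝ, 0 < a → M * a ≤ b → (∀ s ∈ Icc a b, yrat K u x s ≤ ε ^ 2) →
      ((k : ℝ) + d) * a < len K x a → ((k : ℝ) + 1 - η) * b ≤ len K x b := by
    intro a b ha hMb hyab hh
    have hab : a ≤ b := le_trans (by nlinarith) hMb
    have hg := growth_step hG hE hC hCone hP h hx ha hab hd (min_le_right _ _) hε hεd hyab hh.le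
    have h1 : 2 * a ≤ η * b := by nlinarith
    nlinarith [mul_le_mul_of_nonneg_right hεη (ha.trans_le hab).le,
      mul_pos hε (ha.trans_le hab), mul_nonneg hd.le ha.le]
  have hev := (hy.eventually (eventually_le_nhds (show (0 : ℝ) < ε ^ 2 by positivity))).and
    hl.eventually_pos
  rcases hl with rfl | rfl
  · obtain ⟨A, hA⟩ := eventually_atTop.1 hev
    obtain ⟨a, haA, hha⟩ := frequently_atTop.1 hfreq' A
    have ha : 0 < a := (hA a haA).2
    filter_upwards [eventually_ge_atTop (M * a)] with b hb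
    exact fin a b ha hb (fun s hs => (hA s (haA.trans hs.1)).1) hha
  · obtain ⟨A, hA, hsub⟩ := mem_nhdsGT_iff_exists_Ioo_subset.1 hev
    filter_upwards [Ioo_mem_nhdsGT (show (0 : ℝ) < A from hA)] with b hb
    obtain ⟨a, hha, ha⟩ := (hfreq'.and_eventually (Ioo_mem_nhdsGT
      (show (0 : ℝ) < b / M from div_pos hb.1 (by positivity)))).exists
    have hab : M * a ≤ b := by
      have := (lt_div_iff₀ (show 0 < M by positivity)).1 ha.2
      linarith
    exact fin a b ha.1 hab (fun s hs => (hsub ⟨ha.1.trans_le hs.1, hs.2.trans_lt hb.2⟩).1) hha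

/-- The density tends to an integer between one and six. -/
theorem exists_density (hG : GrowthSpec) (hE : EilenbergSpec) (hC : CompStructure K)
    (hCone : ConeSpec) (hP : PartitionSpec) (h : IsGM K u) (hx : x ∈ K) (hl : IsEnd l)
    (hy : Tendsto (yrat K u x) l (𝓝 0)) :
    ∃ n : ℕ, 1 ≤ n ∧ n ≤ 7 ∧ Tendsto (fun r => len K x r / r) l (𝓝 (n : ℝ)) := by
  classical
  set P : ℕ → Prop := fun k => ∀ η : ℝ, 0 < η → ∀ᶠ r in l, ((k : ℝ) - η) * r ≤ len K x r with hPd
  have h1 : P 1 := fun η hη => by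
    filter_upwards [hl.eventually_pos] with r hr
    have := le_len hE h hC hx hr
    push_cast
    nlinarith
  have h8 : ¬ P 8 := fun h8 => by
    have := hl.neBot
    obtain ⟨r, hr, hr0⟩ := ((h8 1 one_pos).and hl.eventually_pos).exists
    obtain ⟨hd, -, hle⟩ := (hG K u h x).1 r hr0
    push_cast at hr
    nlinarith [Real.pi_lt_d2]
  have hex : ∃ k, 1 ≤ k ∧ ¬ P (k + 1) := ⟨7, by norm_num, h8⟩
  set n := Nat.find hex
  obtain ⟨hn1, hn2⟩ := Nat.find_spec hex
  have hn7 : n ≤ 7 := Nat.find_min' hex ⟨by norm_num, h8⟩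
  have hPn : P n := by
    rcases Nat.lt_or_ge 1 n with hlt | hge
    · by_contra hcon
      refine Nat.find_min hex (show n - 1 < n by omega) ⟨by omega, ?_⟩
      rwa [show n - 1 + 1 = n by omega]
    · rwa [show n = 1 by omega]
  refine ⟨n, hn1, hn7, ?_⟩
  rw [Metric.tendsto_nhds]
  intro e he
  have hup : ∀ᶠ r in l, len K x r ≤ ((n : ℝ) + e / 2) * r := by
    by_contra hcon
    refine hn2 fun η hη => ?_
    have hf : ∃ᶠ r in l, ((n : ℝ) + e / 2) * r < len K x r :=
      (not_eventually.1 hcon).mono fun r hr => not_le.1 hr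
    have := eventually_next hG hE hC hCone hP h hx hl hy (half_pos he) hf hη
    push_cast
    exact this
  filter_upwards [hup, hPn (e / 2) (half_pos he), hl.eventually_pos] with r hu hlo hr
  rw [Real.dist_eq, abs_lt, ← sub_pos]
  constructor
  · have : (n : ℝ) - e / 2 ≤ len K x r / r := by rwa [le_div_iff₀ hr]
    linarith
  · have : len K x r / r ≤ (n : ℝ) + e / 2 := by rwa [div_le_iff₀ hr]
    linarith

/-- Most circles carry exactly `n` crossings. -/
theorem most_cnt (hG : GrowthSpec) (hE : EilenbergSpec) (hC : CompStructure K)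
    (hCone : ConeSpec) (hP : PartitionSpec) (h : IsGM K u) (hx : x ∈ K) (hl : IsEnd l)
    (hy : Tendsto (yrat K u x) l (𝓝 0)) {n : ℕ}
    (hn : Tendsto (fun r => len K x r / r) l (𝓝 (n : ℝ))) :
    Most l (fun r => cnt K x r = (n : ℕ∞)) := by
  intro e he
  set δ := min (1 / 4) (e / (4 * ((n : ℝ) + 4)))
  have hn4 : (0 : ℝ) < (n : ℝ) + 4 := by positivity
  have hδ : 0 < δ := lt_min (by norm_num) (by positivity)
  have hδ4 : δ ≤ 1 / 4 := min_le_left _ _
  have hδe : δ * (4 * ((n : ℝ) + 4)) ≤ e := by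
    have : δ ≤ e / (4 * ((n : ℝ) + 4)) := min_le_right _ _
    rwa [le_div_iff₀ (by positivity)] at this
  have hb : ∀ᶠ r in l, ((n : ℝ) - δ) * r ≤ len K x r ∧ len K x r ≤ ((n : ℝ) + δ) * r := by
    filter_upwards [hn.eventually (Ioo_mem_nhds (show (n : ℝ) - δ < n by linarith)
      (show (n : ℝ) < n + δ by linarith)), hl.eventually_pos] with r hr hr0
    exact ⟨((le_div_iff₀ hr0).1 hr.1.le), ((div_le_iff₀ hr0).1 hr.2.le)⟩
  filter_upwards [hl.eventually_forall_Icc hb, hl.eventually_forall_Icc (hy.eventually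
    (eventually_le_nhds (show (0 : ℝ) < δ ^ 2 by positivity))), hl.eventually_pos] with R hR hyR hR0
  have hR2 : R ≤ 2 * R := by linarith
  set Bd := {s | s ∈ Icc R (2 * R) ∧ ¬ Small K u x δ s} with hBd
  have hBd' : volume Bd ≤ ENNReal.ofReal (δ * (2 * R)) :=
    volume_not_small hG h hR0 hR2 hδ (hyR _ ⟨hR2, le_rfl⟩)
  have hsmall : ∀ s ∈ Icc R (2 * R), Small K u x δ s → s ∈ atLeast K x n ∧
      (cnt K x s ≠ (n : ℕ∞) → s ∈ atLeast K x (n + 1)) := by
    intro s hs hsm
    obtain ⟨m, hm, -, hlen⟩ := len_le_cnt hG hC hCone hP h hx hsm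
    have h2 : (n : ℝ) - δ ≤ (m : ℝ) + 2 * δ :=
      le_of_mul_le_mul_right ((hR s hs).1.trans hlen) (hR0.trans_le hs.1)
    have hnm : n ≤ m := by
      by_contra hlt
      have : (m : ℝ) + 1 ≤ n := by exact_mod_cast not_le.1 hlt
      linarith
    refine ⟨mem_atLeast hm hnm, fun hne => mem_atLeast hm ?_⟩
    have : n ≠ m := fun e => hne (by rw [← hm, e])
    omega
  set S1 := atLeast K x n
  set S2 := atLeast K x (n + 1)
  have hm1 := measurableSet_atLeast (x := x) hE h.isClosed n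
  have hm2 := measurableSet_atLeast (x := x) hE h.isClosed (n + 1)
  set I := Ioo R (2 * R)
  have f1 : volume (S1 ∩ I) ≠ ⊤ :=
    ne_top_of_le_ne_top measure_Ioo_lt_top.ne (measure_mono inter_subset_right)
  have f2 : volume (S2 ∩ I) ≠ ⊤ :=
    ne_top_of_le_ne_top measure_Ioo_lt_top.ne (measure_mono inter_subset_right)
  have hv1 : R - δ * (2 * R) ≤ (volume (S1 ∩ I)).toReal := by
    have hsub : I ⊆ S1 ∩ I ∪ Bd := fun s hs => by
      by_cases hsm : Small K u x δ s
      · exact Or.inl ⟨(hsmall s ⟨hs.1.le, hs.2.le⟩ hsm).1, hs⟩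
      · exact Or.inr ⟨⟨hs.1.le, hs.2.le⟩, hsm⟩
    have hv := (measure_mono hsub).trans ((measure_union_le _ _).trans (add_le_add le_rfl hBd'))
    rw [Real.volume_Ioo] at hv
    have := ENNReal.toReal_mono (ENNReal.add_ne_top.2 ⟨f1, ENNReal.ofReal_ne_top⟩) hv
    rw [ENNReal.toReal_add f1 ENNReal.ofReal_ne_top, ENNReal.toReal_ofReal (by linarith),
      ENNReal.toReal_ofReal (by positivity)] at this
    linarith
  have hg := len_add_le (x := x)
    (g := fun s => S1.indicator (fun _ => (n : ℝ≥0∞)) s + S2.indicator (fun _ => 1) s)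
    hE h hR0.le hR2 fun s _ => by
      have hup : ∀ {k : ℕ}, s ∈ atLeast K x k → (k : ℝ≥0∞) ≤ (cnt K x s : ℝ≥0∞) := fun hk => hk
      by_cases h2 : s ∈ S2
      · have h1 : s ∈ S1 := le_trans (by simp) (hup h2)
        rw [indicator_of_mem h1, indicator_of_mem h2]
        simpa using hup h2
      · rw [indicator_of_notMem h2, add_zero]
        by_cases h1 : s ∈ S1
        · rw [indicator_of_mem h1]; exact hup h1
        · rw [indicator_of_notMem h1]; exact zero_le
  rw [lintegral_add_left (measurable_const.indicator hm1), lintegral_indicator hm1,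
    lintegral_indicator hm2, setLIntegral_const, setLIntegral_const, Measure.restrict_apply hm1,
    Measure.restrict_apply hm2, one_mul] at hg
  have hg' := ENNReal.toReal_mono ENNReal.ofReal_ne_top hg
  rw [ENNReal.toReal_add ENNReal.ofReal_ne_top (ENNReal.add_ne_top.2
      ⟨ENNReal.mul_ne_top (ENNReal.natCast_ne_top _) f1, f2⟩),
    ENNReal.toReal_add (ENNReal.mul_ne_top (ENNReal.natCast_ne_top _) f1) f2,
    ENNReal.toReal_ofReal (show 0 ≤ len K x R from ENNReal.toReal_nonneg),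
    ENNReal.toReal_ofReal (show 0 ≤ len K x (2 * R) from ENNReal.toReal_nonneg),
    ENNReal.toReal_mul, ENNReal.toReal_natCast] at hg'
  have hv2 : (volume (S2 ∩ I)).toReal ≤ δ * R * (2 * n + 3) := by
    nlinarith [(hR R ⟨le_rfl, hR2⟩).1, (hR (2 * R) ⟨hR2, le_rfl⟩).2,
      mul_le_mul_of_nonneg_left hv1 (n.cast_nonneg (α := ℝ))]
  have hsub : {s | s ∈ Icc R (2 * R) ∧ ¬ cnt K x s = (n : ℕ∞)} ⊆
      S2 ∩ I ∪ (Bd ∪ {R, 2 * R}) := by
    rintro s ⟨hs, hne⟩
    rcases eq_or_lt_of_le hs.1 with h1 | h1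
    · exact Or.inr (Or.inr (by simp [← h1]))
    rcases eq_or_lt_of_le hs.2 with h2 | h2
    · exact Or.inr (Or.inr (by simp [h2]))
    by_cases hsm : Small K u x δ s
    · exact Or.inl ⟨(hsmall s hs hsm).2 hne, h1, h2⟩
    · exact Or.inr (Or.inl ⟨hs, hsm⟩)
  refine (measure_mono hsub).trans ((measure_union_le _ _).trans ?_)
  refine (add_le_add le_rfl ((measure_union_le _ _).trans (add_le_add hBd'
    (le_of_eq ((Set.toFinite {R, 2 * R}).measure_zero volume))))).trans ?_
  rw [add_zero, ← ENNReal.ofReal_toReal f2, ← ENNReal.ofReal_add ENNReal.toReal_nonneg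
    (by positivity)]
  refine ENNReal.ofReal_le_ofReal ?_
  nlinarith [mul_le_mul_of_nonneg_right hδe hR0.le, n.cast_nonneg (α := ℝ), mul_pos hδ hR0]

/-- S11, first part: two or three crossings, nearly regular. -/
theorem density_regular (hG : GrowthSpec) (hE : EilenbergSpec) (hC : CompStructure K)
    (hCone : ConeSpec) (hNet : NetworkSpec) (hP : PartitionSpec) (h : IsGM K u) (hx : x ∈ K)
    (hl : IsEnd l) (hy : Tendsto (yrat K u x) l (𝓝 0)) :
    ∃ n : ℕ, (n = 2 ∨ n = 3) ∧ Tendsto (fun r => len K x r / r) l (𝓝 (n : ℝ)) ∧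
      ∀ ε > 0, Most l (fun r => GoodRadius K u x r ∧ cnt K x r = (n : ℕ∞) ∧
        tauC u x r ≤ ε ∧ ∀ t m, IsPartition K x r t m → IsRegularStar ε t m) := by
  obtain ⟨n, hn1, hn7, hlim⟩ := exists_density hG hE hC hCone hP h hx hl hy
  have hcnt := most_cnt hG hE hC hCone hP h hx hl hy hlim
  have hreg : ∀ ε > 0, Most l (fun r => GoodRadius K u x r ∧ cnt K x r = (n : ℕ∞) ∧
      tauC u x r ≤ ε ∧ ∀ t m, IsPartition K x r t m → IsRegularStar ε t m) := by
    intro ε hε
    obtain ⟨c, hc, η, hη, hnet⟩ := hNet ε hε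
    have hev : ∀ᶠ r in l, ((n : ℝ) - c) * r < len K x r := by
      filter_upwards [hlim.eventually (eventually_gt_nhds (show (n : ℝ) - c < n by linarith)),
        hl.eventually_pos] with r hr hr0
      exact (lt_div_iff₀ hr0).1 hr
    intro e he
    filter_upwards [((hcnt.and_of (most_small hG h hl hy (lt_min hε hη)) hl.eventually_pos).and_of
      (Most.of_eventually hl hev) hl.eventually_pos) e he] with R hR
    refine (measure_mono ?_).trans hR
    rintro r ⟨hr, hnot⟩
    refine ⟨hr, fun hh => hnot ?_⟩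
    obtain ⟨⟨hcn, hg, hτ⟩, hlen⟩ := hh
    refine ⟨hg, hcn, hτ.trans (min_le_left _ _), fun t m hp => ?_⟩
    have hm : m = n := by
      have := ((hP K x r hg.pos hg.fin).2 t m hp).1
      rw [hcn] at this
      exact_mod_cast this
    by_contra hnr
    have := hnet K u h x r hg t m hp (by omega) hnr (hτ.trans (min_le_right _ _))
    have hd := ((hG K u h x).1 r hg.pos).1
    rw [hm] at this
    linarith
  refine ⟨n, ?_, hlim, hreg⟩
  have := hl.neBot
  obtain ⟨R, hR⟩ := ((hreg 1 one_pos).exists_window hl one_pos).exists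
  obtain ⟨r, -, -, hg, hcn, -, hall⟩ := hR
  obtain ⟨t, m, hp⟩ := exists_partition hP hC hx hg
  have hm : m = n := by
    have := ((hP K x r hg.pos hg.fin).2 t m hp).1
    rw [hcn] at this
    exact_mod_cast this
  exact hm ▸ (hall t m hp).1

end Vale.Agent.P128.Ends
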