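import Vale.Agent.P128.TipBasic
import Vale.Agent.P128.Topo.Components

/-!
# P128, piece M (ends): two neighbouring nearly regular circles

Between two circles of ratio close to one, each with `n` nearly regular crossings and with length close
to `n r`, the crack set stays near the `n` common directions.
-/

open MeasureTheory Set Metric Filter
open scoped ENNReal Topology Real

noncomputable section

namespace Vale.Agent.P128.Ends

variable {K : Set ℂ} {u : ℂ → ℝ} {x : ℂ} {n : ℕ}

/-- The basic root of unity. -/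
def om (n : ℕ) : ℂ := Complex.exp ((2 * π / n : ℝ) * Complex.I)

theorem norm_om_pow (n j : ℕ) : ‖om n ^ j‖ = 1 := by
  rw [norm_pow, om, Complex.norm_exp_ofReal_mul_I, one_pow]

theorem om_pow_self (hn : 0 < n) : om n ^ n = 1 := by
  rw [om, ← Complex.exp_nat_mul]
  convert Complex.exp_two_pi_mul_I using 2
  have : (n : ℂ) ≠ 0 := by exact_mod_cast hn.ne'
  push_cast
  field_simp

theorem om_pow_mod (hn : 0 < n) (j : ℕ) : om n ^ j = om n ^ (j % n) := by
  conv_lhs => rw [← Nat.div_add_mod j n, pow_add, pow_mul, om_pow_self hn, one_pow, one_mul]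

theorem om_sep (hn : n = 2 ∨ n = 3) {j k : ℕ} (hj : j < n) (hk : k < n) (hjk : j ≠ k) :
    1 ≤ ‖om n ^ j - om n ^ k‖ := by
  rcases hn with rfl | rfl
  · have e : om 2 = -1 := by
      rw [om, show ((2 * π / ((2 : ℕ) : ℝ) : ℝ)) = π by push_cast; ring]
      exact Complex.exp_pi_mul_I
    interval_cases j <;> interval_cases k <;> simp [e] at hjk ⊢ <;> norm_num
  · have e : om 3 = ⟨-1 / 2, Real.sqrt 3 / 2⟩ := by
      rw [om, show ((2 * π / ((3 : ℕ) : ℝ) : ℝ)) = π - π / 3 by push_cast; ring]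
      apply Complex.ext
      · rw [Complex.exp_ofReal_mul_I_re, Real.cos_pi_sub, Real.cos_pi_div_three]
        norm_num
      · rw [Complex.exp_ofReal_mul_I_im, Real.sin_pi_sub, Real.sin_pi_div_three]
    have h3 : Real.sqrt 3 ^ 2 = 3 := Real.sq_sqrt (by norm_num)
    have key : 1 ≤ ‖om 3 ^ j - om 3 ^ k‖ ^ 2 := by
      rw [← Complex.normSq_eq_norm_sq]
      interval_cases j <;> interval_cases k <;>
        simp [e, Complex.normSq_apply, pow_two, Complex.mul_re, Complex.mul_im] at hjk ⊢ <;>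
        nlinarith
    nlinarith [norm_nonneg (om 3 ^ j - om 3 ^ k)]

/-- The circle of radius `r` carries crossings near the directions `w ω^j` and only there. -/
structure Star (K : Set ℂ) (x : ℂ) (n : ℕ) (r : ℝ) (w : ℂ) : Prop where
  unit : ‖w‖ = 1
  near : ∀ z ∈ K ∩ sphere x r, ∃ j : ℕ, ‖z - x - r • (w * om n ^ j)‖ ≤ 3 / 1000 * r
  hit : ∀ j : ℕ, ∃ z ∈ K ∩ sphere x r, ‖z - x - r • (w * om n ^ j)‖ ≤ 3 / 1000 * r

/-- A circle that can be used in a chain. -/
structure Nice (K : Set ℂ) (x : ℂ) (n : ℕ) (r : ℝ) : Prop where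
  pos : 0 < r
  fin : (K ∩ sphere x r).Finite
  lenLe : len K x r ≤ ((n : ℝ) + 1 / 1000) * r
  lenGe : ((n : ℝ) - 1 / 1000) * r ≤ len K x r
  star : ∃ w, Star K x n r w

theorem Star.shift (hn : 0 < n) {r : ℝ} {w : ℂ} (h : Star K x n r w) (k : ℕ) :
    Star K x n r (w * om n ^ k) := by
  have e : ∀ j, w * om n ^ k * om n ^ j = w * om n ^ (k + j) := fun j => by rw [mul_assoc, pow_add]
  refine ⟨by rw [norm_mul, h.unit, norm_om_pow, one_mul], fun z hz => ?_, fun j => ?_⟩
  · obtain ⟨j, hj⟩ := h.near z hz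
    refine ⟨j + (n - 1) * k, ?_⟩
    rwa [e, show k + (j + (n - 1) * k) = n * k + j by
      obtain ⟨m, rfl⟩ : ∃ m, n = m + 1 := ⟨n - 1, by omega⟩
      simp only [Nat.add_sub_cancel]; ring,
      pow_add, pow_mul, om_pow_self hn, one_pow, one_mul]
  · simpa only [e] using h.hit (k + j)

/-- Circle facts of a good radius. -/
theorem nice_of_regular (hP : PartitionSpec) (hn : n = 2 ∨ n = 3) {r : ℝ}
    (hg : GoodRadius K u x r) (hcnt : cnt K x r = (n : ℕ∞))
    (hreg : ∀ t m, IsPartition K x r t m → IsRegularStar (1 / 1000) t m)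
    (h1 : len K x r ≤ ((n : ℝ) + 1 / 1000) * r) (h2 : ((n : ℝ) - 1 / 1000) * r ≤ len K x r) :
    Nice K x n r := by
  refine ⟨hg.pos, hg.fin, h1, h2, ?_⟩
  have hne : (K ∩ sphere x r).Nonempty := by
    rw [← encard_pos]
    change 0 < cnt K x r
    rw [hcnt]
    exact_mod_cast (show 0 < n by omega)
  obtain ⟨t, m, hp⟩ := (hP K x r hg.pos hg.fin).1 hne
  obtain ⟨hm, hall⟩ := (hP K x r hg.pos hg.fin).2 t m hp
  have hmn : m = n := by rw [hcnt] at hm; exact_mod_cast hm
  subst hmn
  obtain ⟨-, hgap⟩ := hreg t m hp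
  have hacc : ∀ i ≤ m, |t i - t 0 - i * (2 * π / m)| ≤ i * (1 / 1000) := by
    intro i hi
    induction i with
    | zero => simp
    | succ i ih =>
      have a := abs_le.1 (ih (by omega))
      have b := abs_le.1 (hgap i (by omega))
      push_cast
      rw [abs_le]
      constructor <;> linarith
  set w := Complex.exp ((t 0 : ℝ) * Complex.I)
  have hpt : ∀ i < m, ‖circleMap x r (t i) - x - r • (w * om m ^ i)‖ ≤ 3 / 1000 * r := by
    intro i hi
    have e : x + r • (w * om m ^ i) = circleMap x r (t 0 + i * (2 * π / m)) := by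
      rw [circleMap, om, ← Complex.exp_nat_mul, ← Complex.exp_add, Complex.real_smul]
      congr 2
      push_cast
      ring_nf
    rw [sub_sub, e, ← dist_eq_norm]
    refine ((lipschitzWith_circleMap x r).dist_le_mul _ _).trans ?_
    rw [Real.dist_eq, Real.coe_nnabs, abs_of_pos hg.pos, mul_comm]
    refine mul_le_mul_of_nonneg_right ?_ hg.pos.le
    rw [← sub_sub]
    refine (hacc i hi.le).trans ?_
    have : (i : ℝ) ≤ 3 := by exact_mod_cast (show i ≤ 3 by omega)
    linarith
  refine ⟨w, Complex.norm_exp_ofReal_mul_I _, fun z hz => ?_, fun j => ?_⟩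
  · obtain ⟨i, hi, rfl⟩ := hall z hz
    exact ⟨i, hpt i hi⟩
  · have hj : j % m < m := Nat.mod_lt _ hp.1
    refine ⟨circleMap x r (t (j % m)), ⟨(hp.2.2 _ hj).2, circleMap_mem_sphere x hg.pos.le _⟩, ?_⟩
    rw [om_pow_mod hp.1]
    exact hpt _ hj

/-- Two neighbouring circles. -/
structure Pair2 (K : Set ℂ) (x : ℂ) (n : ℕ) (r r' : ℝ) : Prop where
  nice : Nice K x n r
  nice' : Nice K x n r'
  lt : r < r'
  ratio : r' ≤ (1 + 7 / 1000) * r

variable {r r' : ℝ}

theorem Pair2.gap_len (P : Pair2 K x n r r') (hn : n ≤ 3) :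
    len K x r' - len K x r ≤ 24 / 1000 * r := by
  have h1 := P.nice'.lenLe
  have h2 := P.nice.lenGe
  have h3 : (n : ℝ) ≤ 3 := by exact_mod_cast hn
  nlinarith [P.ratio, P.lt, P.nice.pos, mul_le_mul_of_nonneg_left P.ratio
    (show (0 : ℝ) ≤ (n : ℝ) + 1 / 1000 by positivity)]

/-- Every point between the circles is near a crossing. -/
theorem Pair2.near (P : Pair2 K x n r r') (h : IsGM K u) (hC : CompStructure K) (hx : x ∈ K)
    (hn : n ≤ 3) {p : ℂ} (hp : p ∈ K) (h1 : r ≤ dist p x) (h2 : dist p x ≤ r') :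
    ∃ z ∈ K ∩ sphere x r ∪ K ∩ sphere x r', dist p z ≤ 24 / 1000 * r := by
  by_contra hcon
  simp only [not_exists, not_and, not_le] at hcon
  have hr : 0 < r := P.nice.pos
  set Z := (P.nice.fin.union P.nice'.fin).toFinset
  have hZne : Z.Nonempty := by
    obtain ⟨z, hz⟩ := encard_pos.1 (lt_of_lt_of_le zero_lt_one (hC.meets x hx r hr))
    exact ⟨z, by simp only [Z, Finite.mem_toFinset]; exact Or.inl hz⟩
  obtain ⟨z₀, hz₀, hmin⟩ := Z.exists_min_image (dist p) hZne
  set m := dist p z₀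
  have hm : 24 / 1000 * r < m := hcon z₀ (by simpa [Z] using hz₀)
  set ρ := (24 / 1000 * r + m) / 2
  have hρ : 0 < ρ := by positivity
  have hρm : ρ < m := by simp only [ρ]; linarith
  have hρl : 24 / 1000 * r < ρ := by simp only [ρ]; linarith
  obtain ⟨q, hq, hqc⟩ := hC.reach p ρ p ⟨hp, mem_closedBall_self hρ.le⟩
  set G := connectedComponentIn (K ∩ closedBall p ρ) p
  have hG : G ⊆ K ∩ closedBall p ρ := connectedComponentIn_subset _ _
  have hpG : p ∈ G := mem_connectedComponentIn ⟨hp, mem_closedBall_self hρ.le⟩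
  have havoid : ∀ y ∈ G, dist y x ≠ r ∧ dist y x ≠ r' := by
    intro y hy
    have hyd : dist p y ≤ ρ := by rw [dist_comm]; exact mem_closedBall.1 (hG hy).2
    constructor <;> intro e <;>
      have := hmin y (by
        simp only [Z, Finite.mem_toFinset]
        first | exact Or.inl ⟨(hG hy).1, e⟩ | exact Or.inr ⟨(hG hy).1, e⟩) <;> linarith
  have hin : G ⊆ K ∩ (closedBall x r' \ ball x r) := by
    intro y hy
    have hp1 : r < dist p x := lt_of_le_of_ne h1 (Ne.symm (havoid p hpG).1)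
    have hp2 : dist p x < r' := lt_of_le_of_ne h2 (havoid p hpG).2
    have hcont : ContinuousOn (fun z => dist z x) G := (by fun_prop : Continuous _).continuousOn
    refine ⟨(hG hy).1, mem_closedBall.2 ?_, ?_⟩
    · by_contra hlt
      obtain ⟨w, hw, e⟩ := isPreconnected_connectedComponentIn.intermediate_value hpG hy hcont
        ⟨hp2.le, (not_le.1 hlt).le⟩
      exact (havoid w hw).2 e
    · intro hlt
      obtain ⟨w, hw, e⟩ := isPreconnected_connectedComponentIn.intermediate_value hy hpG hcont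
        ⟨(mem_ball.1 hlt).le, hp1.le⟩
      exact (havoid w hw).1 e
  have hlow : ENNReal.ofReal ρ ≤ μH[1] (K ∩ (closedBall x r' \ ball x r)) := by
    refine le_trans ?_ (measure_mono ((inter_subset_left (t := closedBall p ρ)).trans hin))
    have hle := Topo.length_le_of_isPreconnected (a := p) (R := ρ)
      (isPreconnected_connectedComponentIn (F := K ∩ closedBall p ρ) (x := p)) hpG hqc
      (le_of_eq (mem_sphere.1 hq).symm)
    simpa using hle
  have hfin := (h.length_lt_top x r').ne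
  have hmeq : μH[1] (K ∩ (closedBall x r' \ ball x r)) + μH[1] (K ∩ ball x r) ≤
      μH[1] (K ∩ ball x r') := by
    have hs : μH[1] (K ∩ sphere x r') = 0 := by
      have := Measure.nullSingletonClass_hausdorff ℂ (d := 1) zero_lt_one
      exact P.nice'.fin.measure_zero _
    calc μH[1] (K ∩ (closedBall x r' \ ball x r)) + μH[1] (K ∩ ball x r)
        = μH[1] (K ∩ (closedBall x r' \ ball x r) ∪ K ∩ ball x r) :=
          (measure_union (disjoint_sdiff_self_left.mono inter_subset_right inter_subset_right)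
            (h.isClosed.measurableSet.inter measurableSet_ball)).symm
      _ ≤ μH[1] (K ∩ ball x r' ∪ K ∩ sphere x r') := by
          refine measure_mono ?_
          rintro y (⟨hy, hy', -⟩ | ⟨hy, hy'⟩)
          · rcases (mem_closedBall.1 hy').lt_or_eq with hlt | he
            · exact Or.inl ⟨hy, hlt⟩
            · exact Or.inr ⟨hy, he⟩
          · exact Or.inl ⟨hy, ball_subset_ball P.lt.le hy'⟩
      _ ≤ _ := (measure_union_le _ _).trans (by rw [hs, add_zero])
  have hA := ENNReal.toReal_mono hfin ((add_le_add hlow le_rfl).trans hmeq)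
  rw [ENNReal.toReal_add ENNReal.ofReal_ne_top (h.length_lt_top x r).ne,
    ENNReal.toReal_ofReal hρ.le] at hA
  have := P.gap_len hn
  unfold len at this
  linarith

/-- The directions on the two circles agree. -/
theorem Pair2.anchor (P : Pair2 K x n r r') (h : IsGM K u) (hC : CompStructure K) (hx : x ∈ K)
    (hn : n = 2 ∨ n = 3) {w w' : ℂ} (hw : Star K x n r w) (hw' : Star K x n r' w') :
    ∃ k : ℕ, ‖w - w' * om n ^ k‖ ≤ 1 / 10 := by
  have hr : 0 < r := P.nice.pos
  have hr' : 0 < r' := hr.trans P.lt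
  set lam : ℝ := 24 / 1000 * r
  obtain ⟨z₁, hz₁, hz₁c⟩ := hC.reach x r' x ⟨hx, mem_closedBall_self hr'.le⟩
  set G := connectedComponentIn (K ∩ closedBall x r') x
  have hG : G ⊆ K ∩ closedBall x r' := connectedComponentIn_subset _ _
  set F₁ := closedBall x r ∪ ⋃ z ∈ K ∩ sphere x r, closedBall z lam
  set F₂ := (⋃ z ∈ K ∩ sphere x r', closedBall z lam) \ ball x r
  have hF₁ : IsClosed F₁ :=
    isClosed_closedBall.union (P.nice.fin.isClosed_biUnion fun _ _ => isClosed_closedBall)
  have hF₂ : IsClosed F₂ :=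
    (P.nice'.fin.isClosed_biUnion fun _ _ => isClosed_closedBall).sdiff isOpen_ball
  obtain ⟨y, hyG, hy₁, hy₂⟩ := isPreconnected_closed_iff.1
    (isPreconnected_connectedComponentIn (F := K ∩ closedBall x r') (x := x)) F₁ F₂ hF₁ hF₂
    (by
      intro y hy
      rcases le_or_gt (dist y x) r with hle | hgt
      · exact Or.inl (Or.inl hle)
      obtain ⟨z, hz | hz, hzd⟩ := P.near h hC hx (by omega) (hG hy).1 hgt.le (hG hy).2
      · exact Or.inl (Or.inr (mem_biUnion hz hzd))
      · exact Or.inr ⟨mem_biUnion hz hzd, fun hb => absurd (mem_ball.1 hb) (not_lt.2 hgt.le)⟩)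
    ⟨x, mem_connectedComponentIn ⟨hx, mem_closedBall_self hr'.le⟩,
      Or.inl (mem_closedBall_self hr.le)⟩
    ⟨z₁, hz₁c, mem_biUnion ⟨(hG hz₁c).1, hz₁⟩ (mem_closedBall_self (by positivity)),
      fun hb => absurd (mem_ball.1 hb) (by rw [mem_sphere.1 hz₁]; exact not_lt.2 P.lt.le)⟩
  obtain ⟨z', hz', hyz'⟩ := mem_iUnion₂.1 hy₂.1
  obtain ⟨z, hz, hyz⟩ : ∃ z ∈ K ∩ sphere x r, dist y z ≤ lam := by
    rcases hy₁ with hle | hnear
    · refine ⟨y, ⟨(hG hyG).1, mem_sphere.2 (le_antisymm hle ?_)⟩, by rw [dist_self]; positivity⟩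
      exact not_lt.1 fun hlt => hy₂.2 (mem_ball.2 hlt)
    · obtain ⟨z, hz, hd⟩ := mem_iUnion₂.1 hnear
      exact ⟨z, hz, hd⟩
  obtain ⟨j, hj⟩ := hw.near z hz
  obtain ⟨l, hl⟩ := hw'.near z' hz'
  refine ⟨l + (n - 1) * j, ?_⟩
  have hzz : ‖z - z'‖ ≤ 2 * lam := by
    rw [← dist_eq_norm]
    have := dist_triangle_left z z' y
    linarith [mem_closedBall.1 hyz']
  have e1 : r • (w * om n ^ j - w' * om n ^ l) =
      (z - z') - (z - x - r • (w * om n ^ j)) + (z' - x - r' • (w' * om n ^ l)) +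
        (r' - r) • (w' * om n ^ l) := by module
  have hb : r * ‖w * om n ^ j - w' * om n ^ l‖ ≤
      2 * lam + 3 / 1000 * r + 3 / 1000 * r' + (r' - r) := by
    rw [← Real.norm_of_nonneg hr.le, ← norm_smul, e1, Real.norm_of_nonneg hr.le]
    refine (norm_add_le _ _).trans (add_le_add ((norm_add_le _ _).trans
      (add_le_add ((norm_sub_le _ _).trans (add_le_add hzz hj)) hl)) ?_)
    rw [norm_smul, norm_mul, hw'.unit, norm_om_pow, one_mul, mul_one,
      Real.norm_of_nonneg (by linarith [P.lt])]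
  have hd : ‖w * om n ^ j - w' * om n ^ l‖ ≤ 1 / 10 := by
    have := P.ratio
    simp only [lam] at hb
    by_contra hlt
    nlinarith [mul_lt_mul_of_pos_left (not_le.1 hlt) hr]
  have e2 : w - w' * om n ^ (l + (n - 1) * j) =
      (w * om n ^ j - w' * om n ^ l) * om n ^ ((n - 1) * j) := by
    rw [sub_mul, mul_assoc, ← pow_add, mul_assoc, ← pow_add,
      show j + (n - 1) * j = n * j by
        obtain ⟨m, rfl⟩ : ∃ m, n = m + 1 := ⟨n - 1, by omega⟩
        simp only [Nat.add_sub_cancel]; ring,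
      pow_mul, om_pow_self (by omega), one_pow, mul_one]
  rw [e2, norm_mul, norm_om_pow, mul_one]
  exact hd

/-- Between the circles the crack follows any direction close to both. -/
theorem Pair2.cover (P : Pair2 K x n r r') (h : IsGM K u) (hC : CompStructure K) (hx : x ∈ K)
    (hn : n ≤ 3) {w w' v : ℂ} (hw : Star K x n r w) (hw' : Star K x n r' w')
    (hv : ‖v - w‖ ≤ 1 / 10) (hv' : ‖v - w'‖ ≤ 1 / 10) {p : ℂ} (hp : p ∈ K)
    (h1 : r ≤ dist p x) (h2 : dist p x ≤ r') :
    ∃ j : ℕ, ‖p - x - dist p x • (v * om n ^ j)‖ ≤ dist p x / 5 := by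
  have hr := P.nice.pos
  have hrat := P.ratio
  obtain ⟨z, hz, hpz⟩ := P.near h hC hx hn hp h1 h2
  rw [dist_eq_norm p z] at hpz
  have key : ∀ (ρ : ℝ) (a : ℂ) (j : ℕ), 0 < ρ → ‖a‖ = 1 → |dist p x - ρ| ≤ 7 / 1000 * r →
      ρ ≤ r' → ‖v - a‖ ≤ 1 / 10 → ‖z - x - ρ • (a * om n ^ j)‖ ≤ 3 / 1000 * ρ →
      ‖p - x - dist p x • (v * om n ^ j)‖ ≤ dist p x / 5 := by
    intro ρ a j hρ ha hd hρ' hva hzj
    have e : p - x - dist p x • (v * om n ^ j) = (p - z) + (z - x - ρ • (a * om n ^ j)) -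
        (dist p x - ρ) • (a * om n ^ j) - dist p x • ((v - a) * om n ^ j) := by
      simp only [sub_mul]; module
    rw [e]
    refine (norm_sub_le _ _).trans ((add_le_add ((norm_sub_le _ _).trans (add_le_add
      ((norm_add_le _ _).trans (add_le_add hpz hzj)) (le_refl _))) (le_refl _)).trans ?_)
    rw [norm_smul, norm_smul, norm_mul, norm_mul, ha, norm_om_pow, mul_one, mul_one,
      Real.norm_eq_abs, Real.norm_of_nonneg dist_nonneg, mul_one]
    nlinarith [mul_le_mul_of_nonneg_left hva (dist_nonneg (x := p) (y := x))]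
  rcases hz with hz | hz
  · obtain ⟨j, hj⟩ := hw.near z hz
    exact ⟨j, key r w j hr hw.unit (by rw [abs_of_nonneg (by linarith)]; linarith) P.lt.le hv hj⟩
  · obtain ⟨j, hj⟩ := hw'.near z hz
    exact ⟨j, key r' w' j (hr.trans P.lt) hw'.unit
      (by rw [abs_of_nonpos (by linarith)]; linarith) le_rfl hv' hj⟩

end Vale.Agent.P128.Ends
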